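import Mathlib

open Polynomial Finset

namespace Vale.Agent.Results.P047.EvenDegree

/-- The sign `±1` of the `i`-th coordinate of a point of the cube (`false ↦ 1`, `true ↦ -1`). -/
def sgn {n : ℕ} (x : Fin n → Bool) (i : Fin n) : ℝ := if x i then -1 else 1

/-- The character `χ_S(x) = ∏_{i ∈ S} x_i`. -/
def chi {n : ℕ} (S : Finset (Fin n)) (x : Fin n → Bool) : ℝ := ∏ i ∈ S, sgn x i

/-- The Fourier coefficient `E[f χ_S]` for the uniform measure on the cube. -/
noncomputable def fhat {n : ℕ} (f : (Fin n → Bool) → ℝ) (S : Finset (Fin n)) : ℝ :=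
  (∑ x, f x * chi S x) / 2 ^ n

/-- the mean of `f` under the product measure of bias `t` -/
noncomputable def pfun {n : ℕ} (f : (Fin n → Bool) → ℝ) (t : ℝ) : ℝ :=
  (∑ x, f x * ∏ i, (1 + t * sgn x i)) / 2 ^ n

lemma expand {n : ℕ} (x : Fin n → Bool) (t : ℝ) :
    ∏ i, (1 + t * sgn x i) = ∑ S : Finset (Fin n), t ^ S.card * chi S x := by
  rw [Finset.prod_one_add, powerset_univ]
  refine Finset.sum_congr rfl (fun S _ => ?_)
  rw [Finset.prod_mul_distrib, Finset.prod_const, chi]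

lemma pfun_eq {n : ℕ} (f : (Fin n → Bool) → ℝ) (t : ℝ) :
    pfun f t = ∑ S : Finset (Fin n), t ^ S.card * fhat f S := by
  unfold pfun fhat
  simp_rw [expand, Finset.mul_sum]
  rw [Finset.sum_comm, Finset.sum_div]
  refine Finset.sum_congr rfl (fun S _ => ?_)
  rw [mul_div_assoc', Finset.mul_sum]
  congr 1
  refine Finset.sum_congr rfl (fun x _ => ?_)
  ring

lemma weight_sum (n : ℕ) (t : ℝ) :
    ∑ x : Fin n → Bool, ∏ i, (1 + t * sgn x i) = 2 ^ n := by
  have h := Finset.prod_univ_sum (fun _ : Fin n => (univ : Finset Bool))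
    (fun _ b => 1 + t * (if b then (-1 : ℝ) else 1))
  rw [Fintype.piFinset_univ] at h
  have h2 : ∑ x : Fin n → Bool, ∏ i, (1 + t * sgn x i)
      = ∑ x : Fin n → Bool, ∏ i, (1 + t * (if x i then (-1 : ℝ) else 1)) := rfl
  rw [h2, ← h]
  simp only [Fintype.univ_bool, Finset.prod_const, Finset.card_univ, Fintype.card_fin]
  congr 1
  simp
  ring

lemma sgn_abs {n : ℕ} (x : Fin n → Bool) (i : Fin n) : |sgn x i| = 1 := by
  unfold sgn; split_ifs <;> simp

lemma pfun_abs_le {n : ℕ} (f : (Fin n → Bool) → ℝ) (hf : ∀ x, |f x| ≤ 1) (t : ℝ)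
    (ht : |t| ≤ 1) : |pfun f t| ≤ 1 := by
  unfold pfun
  have hw : ∀ x : Fin n → Bool, 0 ≤ ∏ i, (1 + t * sgn x i) := by
    intro x
    refine Finset.prod_nonneg (fun i _ => ?_)
    have : |t * sgn x i| ≤ 1 := by rw [abs_mul, sgn_abs, mul_one]; exact ht
    linarith [(abs_le.1 this).1]
  rw [abs_div, abs_of_pos (by positivity : (0 : ℝ) < 2 ^ n), div_le_one (by positivity)]
  calc |∑ x, f x * ∏ i, (1 + t * sgn x i)|
      ≤ ∑ x, |f x * ∏ i, (1 + t * sgn x i)| := Finset.abs_sum_le_sum_abs _ _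
    _ ≤ ∑ x : Fin n → Bool, ∏ i, (1 + t * sgn x i) := by
        refine Finset.sum_le_sum (fun x _ => ?_)
        rw [abs_mul, abs_of_nonneg (hw x)]
        exact mul_le_of_le_one_left (hw x) (hf x)
    _ = 2 ^ n := weight_sum n t

/-- the polynomial `g` with `t g(t^2)` equal to the odd part of `pfun f` -/
noncomputable def gpoly {n : ℕ} (f : (Fin n → Bool) → ℝ) : ℝ[X] :=
  ∑ S ∈ univ.filter (fun S : Finset (Fin n) => Odd S.card),
    C (fhat f S) * X ^ ((S.card - 1) / 2)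

lemma eval_gpoly {n : ℕ} (f : (Fin n → Bool) → ℝ) (t : ℝ) :
    t * (gpoly f).eval (t ^ 2) = (pfun f t - pfun f (-t)) / 2 := by
  rw [pfun_eq, pfun_eq, ← Finset.sum_sub_distrib, Finset.sum_div, gpoly, eval_finsetSum,
    Finset.mul_sum, Finset.sum_filter]
  refine Finset.sum_congr rfl (fun S _ => ?_)
  split_ifs with h
  · obtain ⟨j, hj⟩ := h
    have h1 : (S.card - 1) / 2 = j := by omega
    rw [h1, hj]
    simp only [eval_mul, eval_C, eval_pow, eval_X]
    have h2 : (-t) ^ (2 * j + 1) = - t ^ (2 * j + 1) := Odd.neg_pow ⟨j, rfl⟩ t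
    rw [h2]
    ring
  · have h' : Even S.card := Nat.not_odd_iff_even.1 h
    rw [h'.neg_pow]
    ring

lemma gpoly_natDegree {n : ℕ} (f : (Fin n → Bool) → ℝ) (k : ℕ)
    (hdeg : ∀ S : Finset (Fin n), 2 * k + 2 < S.card → fhat f S = 0) :
    (gpoly f).natDegree ≤ k := by
  unfold gpoly
  refine natDegree_sum_le_of_forall_le _ _ (fun S hS => ?_)
  have hodd : Odd S.card := (Finset.mem_filter.1 hS).2
  by_cases h : 2 * k + 2 < S.card
  · rw [hdeg S h]; simp
  · refine (natDegree_C_mul_X_pow_le _ _).trans ?_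
    obtain ⟨j, hj⟩ := hodd
    omega

lemma gpoly_eval_zero {n : ℕ} (f : (Fin n → Bool) → ℝ) :
    (gpoly f).eval 0 = ∑ i, fhat f {i} := by
  rw [gpoly, eval_finsetSum]
  have h1 : ∀ S ∈ univ.filter (fun S : Finset (Fin n) => Odd S.card),
      (C (fhat f S) * X ^ ((S.card - 1) / 2)).eval 0 = if S.card = 1 then fhat f S else 0 := by
    intro S hS
    obtain ⟨j, hj⟩ := (Finset.mem_filter.1 hS).2
    simp only [eval_mul, eval_C, eval_pow, eval_X]
    split_ifs with h
    · rw [h]; simp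
    · have : (S.card - 1) / 2 ≠ 0 := by omega
      rw [zero_pow this, mul_zero]
  rw [Finset.sum_congr rfl h1, ← Finset.sum_filter, Finset.filter_filter]
  have h2 : (univ.filter (fun S : Finset (Fin n) => Odd S.card ∧ S.card = 1))
      = univ.image (fun i : Fin n => ({i} : Finset (Fin n))) := by
    ext S
    simp only [Finset.mem_filter, Finset.mem_univ, true_and, Finset.mem_image]
    constructor
    · rintro ⟨_, h⟩
      obtain ⟨a, ha⟩ := Finset.card_eq_one.1 h
      exact ⟨a, ha.symm⟩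
    · rintro ⟨a, rfl⟩
      simp
  rw [h2, Finset.sum_image (fun a _ b _ h => Finset.singleton_injective h)]

/-- For every `f` on the cube with values in `[-1,1]` (in particular every Boolean `f`) whose
Fourier degree is at most an even number `d ≥ 2`, the sum of the level-one Fourier coefficients is
at most `d - 1`. -/
theorem result (n d : ℕ) (hd : Even d) (hd0 : 0 < d) (f : (Fin n → Bool) → ℝ)
    (hf : ∀ x, |f x| ≤ 1) (hdeg : ∀ S : Finset (Fin n), d < S.card → fhat f S = 0) :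
    ∑ i, fhat f {i} ≤ (d : ℝ) - 1 := by
  obtain ⟨k, rfl⟩ : ∃ k, d = 2 * k + 2 := by
    obtain ⟨j, hj⟩ := hd
    exact ⟨j - 1, by omega⟩
  set g := gpoly f with hg
  have hgdeg : g.natDegree ≤ k := gpoly_natDegree f k hdeg
  set e : ℝ[X] := X * g ^ 2 with he
  have hedeg : e.natDegree ≤ 2 * k + 1 := by
    refine natDegree_mul_le.trans ?_
    have h1 : (g ^ 2).natDegree ≤ 2 * g.natDegree := natDegree_pow_le
    have h2 : (X : ℝ[X]).natDegree ≤ 1 := natDegree_X_le
    omega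
  set l : ℝ[X] := C (1 / 2) * (1 - X) with hl
  have hldeg : l.natDegree ≤ 1 := by
    refine (natDegree_C_mul_le _ _).trans ?_
    refine (natDegree_sub_le _ _).trans ?_
    simp
  set P : ℝ[X] := 1 - C 2 * e.comp l with hP
  have hPdeg : P.degree ≤ ((2 * k + 1 : ℕ) : WithBot ℕ) := by
    refine degree_le_of_natDegree_le ?_
    refine (natDegree_sub_le _ _).trans ?_
    rw [natDegree_one, Nat.zero_max]
    refine (natDegree_C_mul_le _ _).trans ?_
    refine natDegree_comp_le.trans ?_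
    calc e.natDegree * l.natDegree ≤ (2 * k + 1) * 1 := Nat.mul_le_mul hedeg hldeg
      _ = 2 * k + 1 := by ring
  have heval : ∀ u : ℝ, 0 ≤ u → u ≤ 1 → 0 ≤ e.eval u ∧ e.eval u ≤ 1 := by
    intro u hu0 hu1
    have h1 : e.eval u = (Real.sqrt u * g.eval (Real.sqrt u ^ 2)) ^ 2 := by
      rw [he, Real.sq_sqrt hu0, mul_pow, Real.sq_sqrt hu0]
      simp
    have hs0 : 0 ≤ Real.sqrt u := Real.sqrt_nonneg u
    have hs1 : Real.sqrt u ≤ 1 := Real.sqrt_le_one.2 hu1
    have hq : |Real.sqrt u * g.eval (Real.sqrt u ^ 2)| ≤ 1 := by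
      rw [hg, eval_gpoly]
      have a1 := pfun_abs_le f hf (Real.sqrt u) (by rw [abs_of_nonneg hs0]; exact hs1)
      have a2 := pfun_abs_le f hf (-Real.sqrt u) (by rw [abs_neg, abs_of_nonneg hs0]; exact hs1)
      rw [abs_le] at a1 a2 ⊢
      constructor <;> linarith [a1.1, a1.2, a2.1, a2.2]
    rw [h1]
    refine ⟨sq_nonneg _, ?_⟩
    rw [← sq_abs]
    exact pow_le_one₀ (abs_nonneg _) hq
  have hPbnd : ∀ y ∈ Set.Icc (-1 : ℝ) 1, |P.eval y| ≤ 1 := by
    intro y hy
    have h1 : P.eval y = 1 - 2 * e.eval (1 / 2 * (1 - y)) := by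
      simp [hP, hl, eval_comp]
    obtain ⟨h2, h3⟩ := heval (1 / 2 * (1 - y)) (by linarith [hy.2]) (by linarith [hy.1])
    rw [h1, abs_le]
    constructor <;> linarith
  have hmarkov := Polynomial.Chebyshev.eval_iterate_derivative_le_of_forall_abs_le_one
    (k := 1) (x := 1) le_rfl hPdeg hPbnd
  have hT : (derivative^[1] (Polynomial.Chebyshev.T ℝ ((2 * k + 1 : ℕ) : ℤ))).eval 1
      = ((2 * k + 1 : ℕ) : ℝ) ^ 2 := by
    rw [Function.iterate_one, Polynomial.Chebyshev.T_derivative_eq_U]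
    simp only [eval_mul, Polynomial.Chebyshev.U_eval_one]
    simp
    ring
  have hPd : (derivative^[1] P).eval 1 = (g.eval 0) ^ 2 := by
    rw [Function.iterate_one, hP, he, hl]
    simp [eval_comp]
  rw [hT, hPd, hg, gpoly_eval_zero] at hmarkov
  have hm : (0 : ℝ) ≤ ((2 * k + 1 : ℕ) : ℝ) := Nat.cast_nonneg _
  have hfin : ∑ i, fhat f {i} ≤ ((2 * k + 1 : ℕ) : ℝ) := by
    by_contra hcon
    have hlt := not_le.1 hcon
    nlinarith
  have hcast : ((2 * k + 2 : ℕ) : ℝ) - 1 = ((2 * k + 1 : ℕ) : ℝ) := by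
    push_cast; ring
  rw [hcast]
  exact hfin

end Vale.Agent.Results.P047.EvenDegree
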