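import Mathlib
import Vale.Agent.Results.P047.EvenDegree
import Vale.Agent.P047.Core

namespace Vale.Agent.Results.P047.ConstantFactor

open Finset Vale.Agent.Results.P047.EvenDegree

lemma const_case {n : ℕ} (f : (Fin n → Bool) → ℝ) (c : ℝ) (hc : ∀ x, f x = c) (i : Fin n) :
    fhat f {i} = 0 := by
  have h1 : fhat f {i} = (∑ x, f x * Vale.Agent.P311.chi {i} x) / 2 ^ n := rfl
  rw [h1]
  simp only [hc]
  rw [← Finset.mul_sum, Vale.Agent.P311.sum_chi, if_neg (Finset.singleton_ne_empty i)]
  simp

/-- Every Boolean function on the cube of Fourier degree at most `d`, `d ≥ 2`, has level-one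
Fourier coefficients summing to at most `39 d / 40`. -/
theorem result (n d : ℕ) (hd : 2 ≤ d) (f : (Fin n → Bool) → ℝ) (hf : ∀ x, f x = 1 ∨ f x = -1)
    (hdeg : ∀ S : Finset (Fin n), d < S.card → fhat f S = 0) :
    ∑ i, fhat f {i} ≤ (39 / 40) * d := by
  have hd0 : (2 : ℝ) ≤ d := by exact_mod_cast hd
  by_cases h1 : ∃ x, f x = 1
  · by_cases h2 : ∃ x, f x = -1
    · rcases Nat.lt_or_ge d 3 with h3 | h3
      · have h4 : d = 2 := by omega
        subst h4
        have := EvenDegree.result n 2 (by decide) (by norm_num) f (fun x => by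
          rcases hf x with h | h <;> rw [h] <;> simp) hdeg
        push_cast at this ⊢
        linarith
      · exact Vale.Agent.P047.core d h3 f hf h1 h2 hdeg
    · push Not at h2
      have hc : ∀ x, f x = 1 := fun x => (hf x).resolve_right (h2 x)
      rw [Finset.sum_eq_zero (fun i _ => const_case f 1 hc i)]
      positivity
  · push Not at h1
    have hc : ∀ x, f x = -1 := fun x => (hf x).resolve_left (h1 x)
    rw [Finset.sum_eq_zero (fun i _ => const_case f (-1) hc i)]
    positivity

end Vale.Agent.Results.P047.ConstantFactor
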