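import Mathlib
import Vale.Agent.P047.Tensor
import Vale.Agent.P047.Sym
import Vale.Agent.Results.P047.EvenDegree

open Finset

namespace Vale.Agent.Results.P047.WeakToStrong

open Vale.Agent.Results.P047.EvenDegree (fhat)

/-- tensor powers of a balanced Boolean function -/
lemma tensor_power (n d : ℕ) (f : (Fin n → Bool) → ℝ) (hf : ∀ x, f x = 1 ∨ f x = -1)
    (hbal : fhat f ∅ = 0) (hdeg : ∀ S : Finset (Fin n), d < S.card → fhat f S = 0) (k : ℕ) :
    ∃ (N : ℕ) (F : (Fin N → Bool) → ℝ), (∀ x, F x = 1 ∨ F x = -1) ∧ fhat F ∅ = 0 ∧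
      (∀ S : Finset (Fin N), d ^ (k + 1) < S.card → fhat F S = 0) ∧
      ∑ i, fhat F {i} = (∑ i, fhat f {i}) ^ (k + 1) := by
  induction k with
  | zero => exact ⟨n, f, hf, hbal, by simpa using hdeg, by simp⟩
  | succ k ih =>
    obtain ⟨N, F, hF, hF0, hFd, hFa⟩ := ih
    refine ⟨n * N, Vale.Agent.P047.comp f F, Vale.Agent.P047.comp_boolean f F hf,
      Vale.Agent.P047.comp_balanced f F hF hbal hF0, ?_, ?_⟩
    · intro S hS
      refine Vale.Agent.P047.comp_degree f F hF d (d ^ (k + 1)) hdeg hFd S ?_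
      rw [pow_succ' d (k + 1)] at hS
      exact hS
    · have := Vale.Agent.P047.comp_level_one f F hF hF0
      have h2 : ∑ p, fhat (Vale.Agent.P047.comp f F) {p}
          = (∑ i, fhat f {i}) * ∑ j, fhat F {j} := this
      rw [h2, hFa, pow_succ' _ (k + 1)]

/-- If the weak form of the conjecture holds with some constant `C`, then every balanced Boolean
function satisfies the strong form, with constant `1`. -/
theorem balanced_case (C : ℝ)
    (hweak : ∀ (n d : ℕ) (f : (Fin n → Bool) → ℝ), (∀ x, f x = 1 ∨ f x = -1) →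
      (∀ S : Finset (Fin n), d < S.card → fhat f S = 0) →
      ∑ i, fhat f {i} ≤ C * Real.sqrt d)
    (n d : ℕ) (f : (Fin n → Bool) → ℝ) (hf : ∀ x, f x = 1 ∨ f x = -1)
    (hbal : fhat f ∅ = 0) (hdeg : ∀ S : Finset (Fin n), d < S.card → fhat f S = 0) :
    ∑ i, fhat f {i} ≤ Real.sqrt d := by
  set a := ∑ i, fhat f {i} with ha
  by_contra hcon
  push Not at hcon
  have hs0 : 0 ≤ Real.sqrt d := Real.sqrt_nonneg _
  rcases Nat.eq_zero_or_pos d with hd | hd
  · have h1 := hweak n d f hf hdeg
    rw [hd] at h1 hcon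
    simp at h1 hcon
    linarith
  · have hsp : 0 < Real.sqrt d := Real.sqrt_pos.mpr (by exact_mod_cast hd)
    have hr : 1 < a / Real.sqrt d := by rwa [one_lt_div hsp]
    obtain ⟨k, hk⟩ := pow_unbounded_of_one_lt C hr
    have hk' : C < (a / Real.sqrt d) ^ (k + 1) := by
      refine lt_of_lt_of_le hk ?_
      exact pow_le_pow_right₀ hr.le (Nat.le_succ k)
    obtain ⟨N, F, hF, _, hFd, hFa⟩ := tensor_power n d f hf hbal hdeg k
    have h1 := hweak N (d ^ (k + 1)) F hF hFd
    rw [hFa] at h1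
    have h2 : Real.sqrt ((d ^ (k + 1) : ℕ) : ℝ) = Real.sqrt d ^ (k + 1) := by
      push_cast
      rw [Real.sqrt_eq_iff_mul_self_eq (by positivity) (by positivity), ← mul_pow,
        Real.mul_self_sqrt (by positivity)]
    rw [h2] at h1
    rw [div_pow, lt_div_iff₀ (by positivity)] at hk'
    linarith

/-- If the weak form of the conjecture holds with some constant `C`, then every Boolean function
of degree at most `d` has level-one sum at most `√(d+1)`, and at most `√d` (the strong form) if `d`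
is odd or if the function is balanced. -/
theorem result (C : ℝ)
    (hweak : ∀ (n d : ℕ) (f : (Fin n → Bool) → ℝ), (∀ x, f x = 1 ∨ f x = -1) →
      (∀ S : Finset (Fin n), d < S.card → fhat f S = 0) →
      ∑ i, fhat f {i} ≤ C * Real.sqrt d)
    (n d : ℕ) (f : (Fin n → Bool) → ℝ) (hf : ∀ x, f x = 1 ∨ f x = -1)
    (hdeg : ∀ S : Finset (Fin n), d < S.card → fhat f S = 0) :
    ∑ i, fhat f {i} ≤ Real.sqrt (d + 1) ∧
      (Odd d → ∑ i, fhat f {i} ≤ Real.sqrt d) ∧
      (fhat f ∅ = 0 → ∑ i, fhat f {i} ≤ Real.sqrt d) := by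
  have key : ∑ i, fhat f {i} ≤ Real.sqrt ((if Odd d then d else d + 1 : ℕ) : ℝ) := by
    have h1 := balanced_case C hweak (n + 1) (if Odd d then d else d + 1)
      (Vale.Agent.P047.symz f) (Vale.Agent.P047.symz_boolean f hf)
      (Vale.Agent.P047.symz_balanced f) (Vale.Agent.P047.symz_degree f d hdeg)
    have h2 := balanced_case C hweak (n + 1) (if Odd d then d else d + 1)
      (Vale.Agent.P047.symz' f) (Vale.Agent.P047.symz'_boolean f hf)
      (Vale.Agent.P047.symz'_balanced f) (Vale.Agent.P047.symz'_degree f d hdeg)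
    have e1 : ∑ p, fhat (Vale.Agent.P047.symz f) {p} = fhat f ∅ + ∑ i, fhat f {i} :=
      Vale.Agent.P047.symz_level_one f
    have e2 : ∑ p, fhat (Vale.Agent.P047.symz' f) {p} = - fhat f ∅ + ∑ i, fhat f {i} :=
      Vale.Agent.P047.symz'_level_one f
    rw [e1] at h1
    rw [e2] at h2
    linarith
  refine ⟨?_, ?_, fun hbal => balanced_case C hweak n d f hf hbal hdeg⟩
  · refine key.trans (Real.sqrt_le_sqrt ?_)
    split_ifs <;> push_cast <;> linarith
  · intro hodd
    rw [if_pos hodd] at key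
    exact key

end Vale.Agent.Results.P047.WeakToStrong
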