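import Mathlib
import Vale.Agent.P047.Tensor
import Vale.Agent.P047.Sym
import Vale.Agent.Results.P047.EvenDegree
import Vale.Agent.Results.P047.WeakToStrong

open Finset Filter Topology

namespace Vale.Agent.Results.P047.GrowthExponent

open Vale.Agent.Results.P047.EvenDegree (fhat)
open Vale.Agent.Results.P047.WeakToStrong (tensor_power)

/-- the set of exponents `θ ≥ 0` with `M(d) = O(d^θ)` -/
def Theta : Set ℝ :=
  {θ | 0 ≤ θ ∧ ∃ C : ℝ, ∀ (n d : ℕ) (f : (Fin n → Bool) → ℝ), (∀ x, f x = 1 ∨ f x = -1) →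
      (∀ S : Finset (Fin n), d < S.card → fhat f S = 0) →
      ∑ i, fhat f {i} ≤ C * (d : ℝ) ^ θ}

lemma deg_zero (n : ℕ) (f : (Fin n → Bool) → ℝ)
    (hdeg : ∀ S : Finset (Fin n), 0 < S.card → fhat f S = 0) : ∑ i, fhat f {i} = 0 := by
  refine Finset.sum_eq_zero (fun i _ => hdeg {i} ?_)
  simp

/-- the Nisan-Szegedy bound, from the hand-in `EvenDegree` -/
lemma linear_bound (n d : ℕ) (f : (Fin n → Bool) → ℝ) (hf : ∀ x, f x = 1 ∨ f x = -1)
    (hdeg : ∀ S : Finset (Fin n), d < S.card → fhat f S = 0) : ∑ i, fhat f {i} ≤ (d : ℝ) := by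
  have hb : ∀ x, |f x| ≤ 1 := by
    intro x
    rcases hf x with h | h <;> rw [h] <;> simp
  rcases Nat.even_or_odd d with he | ho
  · rcases Nat.eq_zero_or_pos d with h0 | hpos
    · subst h0
      rw [deg_zero n f hdeg]
      simp
    · have := EvenDegree.result n d he hpos f hb hdeg
      linarith
  · have he : Even (d + 1) := ho.add_one
    have := EvenDegree.result n (d + 1) he (Nat.succ_pos d) f hb
      (fun S hS => hdeg S (by omega))
    push_cast at this
    linarith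

lemma one_mem : (1 : ℝ) ∈ Theta := by
  refine ⟨zero_le_one, 1, ?_⟩
  intro n d f hf hdeg
  rw [one_mul, Real.rpow_one]
  exact linear_bound n d f hf hdeg

/-- for an admissible exponent the constant is `1` on balanced functions -/
lemma balanced_of_mem {θ : ℝ} (hθ : θ ∈ Theta)
    (n d : ℕ) (f : (Fin n → Bool) → ℝ) (hf : ∀ x, f x = 1 ∨ f x = -1)
    (hbal : fhat f ∅ = 0) (hdeg : ∀ S : Finset (Fin n), d < S.card → fhat f S = 0) :
    ∑ i, fhat f {i} ≤ (d : ℝ) ^ θ := by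
  obtain ⟨hθ0, C, hweak⟩ := hθ
  set a := ∑ i, fhat f {i} with ha
  by_contra hcon
  push Not at hcon
  have hs0 : 0 ≤ (d : ℝ) ^ θ := Real.rpow_nonneg (Nat.cast_nonneg _) _
  rcases Nat.eq_zero_or_pos d with hd | hd
  · subst hd
    have : a = 0 := deg_zero n f hdeg
    linarith
  · have hsp : 0 < (d : ℝ) ^ θ := Real.rpow_pos_of_pos (by exact_mod_cast hd) _
    have hr : 1 < a / (d : ℝ) ^ θ := by rwa [one_lt_div hsp]
    obtain ⟨k, hk⟩ := pow_unbounded_of_one_lt C hr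
    have hk' : C < (a / (d : ℝ) ^ θ) ^ (k + 1) := by
      refine lt_of_lt_of_le hk ?_
      exact pow_le_pow_right₀ hr.le (Nat.le_succ k)
    obtain ⟨N, F, hF, _, hFd, hFa⟩ := tensor_power n d f hf hbal hdeg k
    have h1 := hweak N (d ^ (k + 1)) F hF hFd
    rw [hFa] at h1
    have h2 : (((d ^ (k + 1) : ℕ) : ℝ)) ^ θ = ((d : ℝ) ^ θ) ^ (k + 1) := by
      push_cast
      exact (Real.rpow_pow_comm (Nat.cast_nonneg _) θ (k + 1)).symm
    rw [h2] at h1
    rw [div_pow, lt_div_iff₀ (by positivity)] at hk'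
    linarith

/-- the same at the infimum of the admissible exponents -/
lemma balanced_inf
    (n d : ℕ) (f : (Fin n → Bool) → ℝ) (hf : ∀ x, f x = 1 ∨ f x = -1)
    (hbal : fhat f ∅ = 0) (hdeg : ∀ S : Finset (Fin n), d < S.card → fhat f S = 0) :
    ∑ i, fhat f {i} ≤ (d : ℝ) ^ (sInf Theta) := by
  have hne : Theta.Nonempty := ⟨1, one_mem⟩
  rcases Nat.eq_zero_or_pos d with hd | hd
  · subst hd
    rw [deg_zero n f hdeg]
    exact Real.rpow_nonneg (Nat.cast_nonneg _) _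
  · have hd1 : (1 : ℝ) ≤ d := by exact_mod_cast hd
    have hd0 : (d : ℝ) ≠ 0 := by linarith
    have key : ∀ γ : ℝ, sInf Theta < γ → ∑ i, fhat f {i} ≤ (d : ℝ) ^ γ := by
      intro γ hγ
      obtain ⟨θ, hmem, hlt⟩ := exists_lt_of_csInf_lt hne hγ
      exact (balanced_of_mem hmem n d f hf hbal hdeg).trans
        (Real.rpow_le_rpow_of_exponent_le hd1 hlt.le)
    have hcont : Continuous (fun γ : ℝ => (d : ℝ) ^ γ) := Real.continuous_const_rpow hd0
    have hseq : Tendsto (fun k : ℕ => sInf Theta + 1 / ((k : ℝ) + 1)) atTop (𝓝 (sInf Theta)) := by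
      have := (tendsto_const_nhds (x := sInf Theta)).add tendsto_one_div_add_atTop_nhds_zero_nat
      simpa using this
    have hlim : Tendsto (fun k : ℕ => (d : ℝ) ^ (sInf Theta + 1 / ((k : ℝ) + 1))) atTop
        (𝓝 ((d : ℝ) ^ (sInf Theta))) := (hcont.tendsto _).comp hseq
    refine ge_of_tendsto' hlim (fun k => ?_)
    apply key
    have : (0 : ℝ) < 1 / ((k : ℝ) + 1) := by positivity
    linarith

lemma inf_nonneg : 0 ≤ sInf Theta := le_csInf ⟨1, one_mem⟩ (fun _ h => h.1)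

/-- all three bounds at the infimum -/
lemma bounds (n d : ℕ) (f : (Fin n → Bool) → ℝ) (hf : ∀ x, f x = 1 ∨ f x = -1)
    (hdeg : ∀ S : Finset (Fin n), d < S.card → fhat f S = 0) :
    ∑ i, fhat f {i} ≤ ((d : ℝ) + 1) ^ (sInf Theta) ∧
      (Odd d → ∑ i, fhat f {i} ≤ (d : ℝ) ^ (sInf Theta)) ∧
      (fhat f ∅ = 0 → ∑ i, fhat f {i} ≤ (d : ℝ) ^ (sInf Theta)) := by
  have key : ∑ i, fhat f {i} ≤ (((if Odd d then d else d + 1 : ℕ) : ℝ)) ^ (sInf Theta) := by
    have h1 := balanced_inf (n + 1) (if Odd d then d else d + 1)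
      (Vale.Agent.P047.symz f) (Vale.Agent.P047.symz_boolean f hf)
      (Vale.Agent.P047.symz_balanced f) (Vale.Agent.P047.symz_degree f d hdeg)
    have h2 := balanced_inf (n + 1) (if Odd d then d else d + 1)
      (Vale.Agent.P047.symz' f) (Vale.Agent.P047.symz'_boolean f hf)
      (Vale.Agent.P047.symz'_balanced f) (Vale.Agent.P047.symz'_degree f d hdeg)
    have e1 : ∑ p, fhat (Vale.Agent.P047.symz f) {p} = fhat f ∅ + ∑ i, fhat f {i} :=
      Vale.Agent.P047.symz_level_one f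
    have e2 : ∑ p, fhat (Vale.Agent.P047.symz' f) {p} = - fhat f ∅ + ∑ i, fhat f {i} :=
      Vale.Agent.P047.symz'_level_one f
    rw [e1] at h1
    rw [e2] at h2
    linarith
  refine ⟨?_, ?_, fun hbal => balanced_inf n d f hf hbal hdeg⟩
  · refine key.trans (Real.rpow_le_rpow (Nat.cast_nonneg _) ?_ inf_nonneg)
    split_ifs <;> push_cast <;> linarith
  · intro hodd
    rw [if_pos hodd] at key
    exact key

/-- The optimal growth exponent `θ* = inf {θ : M(d) = O(d^θ)}` is attained, and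
`M(d) ≤ (d+1)^θ*`, with `d^θ*` for odd `d` and for balanced functions. -/
theorem result :
    sInf Theta ∈ Theta ∧
    ∀ (n d : ℕ) (f : (Fin n → Bool) → ℝ), (∀ x, f x = 1 ∨ f x = -1) →
      (∀ S : Finset (Fin n), d < S.card → fhat f S = 0) →
      ∑ i, fhat f {i} ≤ ((d : ℝ) + 1) ^ (sInf Theta) ∧
      (Odd d → ∑ i, fhat f {i} ≤ (d : ℝ) ^ (sInf Theta)) ∧
      (fhat f ∅ = 0 → ∑ i, fhat f {i} ≤ (d : ℝ) ^ (sInf Theta)) := by
  refine ⟨⟨inf_nonneg, (2 : ℝ) ^ (sInf Theta), ?_⟩, bounds⟩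
  intro n d f hf hdeg
  rcases Nat.eq_zero_or_pos d with hd | hd
  · subst hd
    rw [deg_zero n f hdeg]
    have h1 : 0 ≤ (2 : ℝ) ^ (sInf Theta) := Real.rpow_nonneg (by norm_num) _
    have h2 : 0 ≤ ((0 : ℕ) : ℝ) ^ (sInf Theta) := Real.rpow_nonneg (Nat.cast_nonneg _) _
    positivity
  · have hd1 : (1 : ℝ) ≤ d := by exact_mod_cast hd
    refine (bounds n d f hf hdeg).1.trans ?_
    rw [← Real.mul_rpow (by norm_num) (by linarith)]
    exact Real.rpow_le_rpow (by linarith) (by linarith) inf_nonneg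

end Vale.Agent.Results.P047.GrowthExponent
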